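import Vale.Agent.P181.DG4.H237.Final
import Vale.Agent.P181.DGx.H831.Ker
import Vale.Agent.P181.DU.Shift

set_option autoImplicit false

/-!
# P181, DU (W4): the joint shift
-/

open MvPolynomial

namespace Vale.Agent.P181.DU.H247

open Vale.Agent.P181.T4 (HW)
open Vale.Agent.P181.DG
open Vale.Agent.P181.DG.H514 (KerT KerStmt NF pderiv_colD rc_itD)
open Vale.Agent.P181.DG0 (mem_PKT)
open Vale.Agent.P181.DG4a
open Vale.Agent.P181.SZR3
open Vale.Agent.P181.SZT0 (rc)
open Vale.Agent.P181.DGz.H547 (itD_inj')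
open Vale.Agent.P181.DG4.H237 (core)

variable {m n t : ℕ} {β : Type} [Fintype β] [DecidableEq β]

/-- The columns: `u = inl (inl none)`, the letters of `Y` are `inl (inl (some q))`, the others
`inl (inr r)`, the small columns `inr s`. -/
abbrev Cs (n t : ℕ) (β : Type) : Type := (Option (Fin n) ⊕ β) ⊕ Fin t

/-- The receptacle. -/
abbrev a0 (n t : ℕ) (β : Type) : Cs n t β := Sum.inl (Sum.inl none)

/-- The letters of `Y`. -/
abbrev cc (n t : ℕ) (β : Type) (q : Fin n) : Cs n t β := Sum.inl (Sum.inl (some q))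

omit [Fintype β] [DecidableEq β] in
lemma cc_inj {q q' : Fin n} (h : cc n t β q = cc n t β q') : q = q' :=
  Option.some_injective _ (Sum.inl_injective (Sum.inl_injective h))

omit [Fintype β] [DecidableEq β] in
lemma a0_ne_cc (q : Fin n) : a0 n t β ≠ cc n t β q := by
  intro h
  exact absurd (Sum.inl_injective (Sum.inl_injective h)) (by simp)

/-- The product of the operators `(∑ X (i, u) ∂/∂X (i, q)) ^ z`, `q ∈ L`. -/
noncomputable def Sh (m n t : ℕ) (β : Type) [DecidableEq β] (z : ℕ) : List (Fin n) →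
    (MvPolynomial (Fin m × Cs n t β) ℂ →ₗ[ℂ] MvPolynomial (Fin m × Cs n t β) ℂ)
  | [] => LinearMap.id
  | q :: L => itD (a0 n t β) (cc n t β q) z ∘ₗ Sh m n t β z L

omit [Fintype β] in
lemma Sh_nil (z : ℕ) (f : MvPolynomial (Fin m × Cs n t β) ℂ) : Sh m n t β z [] f = f := rfl

omit [Fintype β] in
lemma Sh_cons (z : ℕ) (q : Fin n) (L : List (Fin n)) (f : MvPolynomial (Fin m × Cs n t β) ℂ) :
    Sh m n t β z (q :: L) f = itD (a0 n t β) (cc n t β q) z (Sh m n t β z L f) := rfl

lemma coeff_itD {τ : Type} [Fintype τ] [DecidableEq τ] {a c : τ} {z : ℕ}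
    {f : MvPolynomial (Fin m × τ) ℂ} {v : Fin m × τ →₀ ℕ} (h : coeff v (itD a c z f) ≠ 0) :
    ∃ u, coeff u f ≠ 0 ∧ ∀ j, cdeg v j + (if c = j then z else 0) =
      cdeg u j + (if a = j then z else 0) := by
  rw [← polL_replicate] at h
  obtain ⟨u, hu, h1⟩ := exists_coeff_polL _ _ _ v h
  refine ⟨u, hu, fun j => ?_⟩
  have h2 := h1 j
  rw [List.length_replicate] at h2
  rw [h2, cnt, List.count_replicate]
  by_cases haj : a = j
  · simp [haj]
  · simp [haj]

lemma coeff_Sh {z : ℕ} {L : List (Fin n)} (hL : L.Nodup)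
    {f : MvPolynomial (Fin m × Cs n t β) ℂ} {v : Fin m × Cs n t β →₀ ℕ}
    (h : coeff v (Sh m n t β z L f) ≠ 0) :
    ∃ u, coeff u f ≠ 0 ∧ cdeg v (a0 n t β) = cdeg u (a0 n t β) + z * L.length ∧
      (∀ q ∈ L, cdeg v (cc n t β q) + z = cdeg u (cc n t β q)) ∧
      ∀ j, j ≠ a0 n t β → (∀ q ∈ L, j ≠ cc n t β q) → cdeg v j = cdeg u j := by
  induction L generalizing v with
  | nil => exact ⟨v, h, by simp, by simp, fun _ _ _ => rfl⟩
  | cons q L ih =>
    rw [Sh_cons] at h
    obtain ⟨w, hw, h1⟩ := coeff_itD h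
    obtain ⟨u, hu, h2, h3, h4⟩ := ih (List.nodup_cons.1 hL).2 hw
    have hq := (List.nodup_cons.1 hL).1
    refine ⟨u, hu, ?_, fun q' hq' => ?_, fun j hj hj' => ?_⟩
    · have h5 := h1 (a0 n t β)
      rw [if_neg (Ne.symm (a0_ne_cc q)), if_pos rfl, h2] at h5
      rw [List.length_cons, Nat.mul_succ]
      omega
    · rcases List.mem_cons.1 hq' with rfl | hq'
      · have h5 := h1 (cc n t β q')
        rw [if_pos rfl, if_neg (a0_ne_cc q')] at h5
        have h8 : ∀ q'' ∈ L, cc n t β q' ≠ cc n t β q'' := by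
          intro q'' hq'' h7
          apply hq
          rw [cc_inj (t := t) (β := β) h7]
          exact hq''
        have h6 := h4 (cc n t β q') (Ne.symm (a0_ne_cc q')) h8
        omega
      · have h5 := h1 (cc n t β q')
        have h8 : cc n t β q ≠ cc n t β q' := by
          intro h7
          apply hq
          rw [cc_inj (t := t) (β := β) h7]
          exact hq'
        rw [if_neg h8, if_neg (a0_ne_cc q')] at h5
        have h6 := h3 q' hq'
        omega
    · have h5 := h1 j
      rw [if_neg (Ne.symm (hj' q (List.mem_cons_self ..))), if_neg (Ne.symm hj)] at h5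
      have h6 := h4 j hj fun q' hq' => hj' q' (List.mem_cons_of_mem _ hq')
      omega

lemma Sh_inj {z r : ℕ} {d : Fin n → ℕ} {L : List (Fin n)} (hL : L.Nodup)
    (hd : ∀ q ∈ L, r + z * L.length ≤ d q)
    {f : MvPolynomial (Fin m × Cs n t β) ℂ}
    (hf : ∀ v, coeff v f ≠ 0 → cdeg v (a0 n t β) = r ∧ ∀ q, cdeg v (cc n t β q) = d q)
    (h0 : Sh m n t β z L f = 0) : f = 0 := by
  induction L with
  | nil => exact h0
  | cons q L ih =>
    have hL' := List.nodup_cons.1 hL
    rw [List.length_cons] at hd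
    refine ih hL'.2 (fun q' hq' => le_trans ?_ (hd q' (List.mem_cons_of_mem _ hq'))) ?_
    · rw [Nat.mul_succ]
      omega
    · rw [Sh_cons] at h0
      refine itD_inj' (τ := Cs n t β) (a := a0 n t β) (c := cc n t β q) (a0_ne_cc q)
        (r := r + z * L.length) (n := d q) ?_ ?_ h0
      · have h1 := hd q (List.mem_cons_self ..)
        rw [Nat.mul_succ] at h1
        omega
      · intro v hv
        obtain ⟨u, hu, h2, _, h4⟩ := coeff_Sh hL'.2 hv
        obtain ⟨h5, h6⟩ := hf u hu
        refine ⟨by rw [h2, h5], ?_⟩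
        have h8 : ∀ q' ∈ L, cc n t β q ≠ cc n t β q' := by
          intro q' hq' h7
          apply hL'.1
          rw [cc_inj (t := t) (β := β) h7]
          exact hq'
        rw [h4 _ (Ne.symm (a0_ne_cc q)) h8, h6]

lemma mem_HW_Sh {z : ℕ} (L : List (Fin n)) {mu : Fin m → ℕ}
    {f : MvPolynomial (Fin m × Cs n t β) ℂ} (hf : f ∈ HW m (Cs n t β) mu) :
    Sh m n t β z L f ∈ HW m (Cs n t β) mu := by
  induction L with
  | nil => exact hf
  | cons q L ih => exact mem_HW_itD ih z

omit [Fintype β] in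
lemma pderiv_Sh {z : ℕ} (L : List (Fin n)) (i : Fin m) (s : Fin t)
    (f : MvPolynomial (Fin m × Cs n t β) ℂ) :
    pderiv (i, Sum.inr s) (Sh m n t β z L f) = Sh m n t β z L (pderiv (i, Sum.inr s) f) := by
  have key : ∀ (q : Fin n) (u : ℕ) (g : MvPolynomial (Fin m × Cs n t β) ℂ),
      pderiv (i, Sum.inr s) (itD (a0 n t β) (cc n t β q) u g) =
        itD (a0 n t β) (cc n t β q) u (pderiv (i, Sum.inr s) g) := by
    intro q u g
    induction u with
    | zero => rw [itD_zero, itD_zero]
    | succ u ih =>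
      rw [itD_succ, itD_succ, pderiv_colD, if_neg (by simp), add_zero, ih]
  induction L with
  | nil => rfl
  | cons q L ih => rw [Sh_cons, Sh_cons, key, ih]

omit [Fintype β] in
lemma colD_comm2 {τ : Type} [DecidableEq τ] {a c c' : τ} (h1 : c ≠ a) (h2 : c' ≠ a)
    (f : MvPolynomial (Fin m × τ) ℂ) : colD a c (colD a c' f) = colD a c' (colD a c f) := by
  have h : ⁅(colD a c : Derivation ℂ (MvPolynomial (Fin m × τ) ℂ) (MvPolynomial (Fin m × τ) ℂ)),
      (colD a c' : Derivation ℂ (MvPolynomial (Fin m × τ) ℂ) (MvPolynomial (Fin m × τ) ℂ))⁆ =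
      0 := by
    apply derivation_ext
    rintro ⟨k, l⟩
    rw [Derivation.commutator_apply, colD_X, colD_X, Derivation.zero_apply]
    have h3 : colD a c (if l = c' then (X (k, a) : MvPolynomial (Fin m × τ) ℂ) else 0) = 0 := by
      split_ifs
      · rw [colD_X, if_neg (Ne.symm h1)]
      · exact map_zero _
    have h4 : colD a c' (if l = c then (X (k, a) : MvPolynomial (Fin m × τ) ℂ) else 0) = 0 := by
      split_ifs
      · rw [colD_X, if_neg (Ne.symm h2)]
      · exact map_zero _
    rw [h3, h4, sub_zero]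
  have h1 := congrArg (fun D => D f) h
  simp only [Derivation.commutator_apply, Derivation.zero_apply] at h1
  exact sub_eq_zero.1 h1

lemma itD_comm2 {τ : Type} [DecidableEq τ] {a c c' : τ} (h1 : c ≠ a) (h2 : c' ≠ a) (u u' : ℕ)
    (f : MvPolynomial (Fin m × τ) ℂ) :
    itD a c u (itD a c' u' f) = itD a c' u' (itD a c u f) := by
  have key : ∀ (u' : ℕ) (f : MvPolynomial (Fin m × τ) ℂ),
      colD a c (itD a c' u' f) = itD a c' u' (colD a c f) := by
    intro u'
    induction u' with
    | zero => intro f; rw [itD_zero, itD_zero]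
    | succ u' ih => intro f; rw [itD_succ, itD_succ, colD_comm2 h1 h2, ih]
  induction u with
  | zero => rw [itD_zero, itD_zero]
  | succ u ih => rw [itD_succ, itD_succ, ih, key]

omit [Fintype β] in
lemma Sh_perm {z : ℕ} {L L' : List (Fin n)} (h : L.Perm L')
    (f : MvPolynomial (Fin m × Cs n t β) ℂ) : Sh m n t β z L f = Sh m n t β z L' f := by
  induction h with
  | nil => rfl
  | cons q _ ih => rw [Sh_cons, Sh_cons, ih]
  | swap q q' L =>
    rw [Sh_cons, Sh_cons, Sh_cons, Sh_cons,
      itD_comm2 (Ne.symm (a0_ne_cc q')) (Ne.symm (a0_ne_cc q))]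
  | trans _ _ ih1 ih2 => rw [ih1, ih2]

omit [Fintype β] in
lemma rn_Sh {z : ℕ} (φ : Cs n t β → Cs n t β) (hφ : Function.Injective φ)
    (h0 : φ (a0 n t β) = a0 n t β) (π : Fin n → Fin n) (h1 : ∀ q, φ (cc n t β q) = cc n t β (π q))
    (L : List (Fin n)) (f : MvPolynomial (Fin m × Cs n t β) ℂ) :
    rn φ (Sh m n t β z L f) = Sh m n t β z (L.map π) (rn φ f) := by
  induction L with
  | nil => rfl
  | cons q L ih =>
    rw [Sh_cons, List.map_cons, Sh_cons, ← ih]
    have h2 := rc_itD (m := m) φ (a0 n t β) (cc n t β q) (fun b hb => hφ hb) z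
      (Sh m n t β z L f)
    rw [h0, h1] at h2
    exact h2

variable {S : ℕ} {d1 d2 : Option (Fin n) ⊕ β → ℕ} {mu : Fin m → ℕ}

lemma Sh_mem {z u : ℕ} {Y : Fin n → ℕ} (h10 : d1 (Sum.inl none) = u)
    (h1q : ∀ q, d1 (Sum.inl (some q)) = Y q) (h20 : d2 (Sum.inl none) = u + z * n)
    (h2q : ∀ q, d2 (Sum.inl (some q)) = Y q - z) (h12 : ∀ r, d1 (Sum.inr r) = d2 (Sum.inr r))
    (hY : ∀ q, u + z * n ≤ Y q) (hYr : ∀ q r, Y q - z ≠ d2 (Sum.inr r))
    (hYu : ∀ q, Y q - z ≠ u + z * n) (hur : ∀ r, u + z * n ≠ d2 (Sum.inr r))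
    {f : MvPolynomial (Fin m × Cs n t β) ℂ}
    (hf : f ∈ PKT m S (Option (Fin n) ⊕ β) d1 t mu) :
    Sh m n t β z (List.finRange n) f ∈ PKT m S (Option (Fin n) ⊕ β) d2 t mu := by
  have hz : ∀ q, z ≤ Y q := by
    intro q
    have h1 := hY q
    have h2 : 1 ≤ n := q.pos
    have h3 : z * 1 ≤ z * n := Nat.mul_le_mul_left z h2
    omega
  rw [mem_PKT] at hf ⊢
  obtain ⟨h1, h2, h3, h4⟩ := hf
  refine ⟨mem_HW_Sh _ h1, ?_, ?_, ?_⟩
  · intro v hv
    obtain ⟨w, hw, h5, h6, h7⟩ := coeff_Sh (List.nodup_finRange n) hv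
    obtain ⟨h8, h9⟩ := h2 w hw
    rw [List.length_finRange] at h5
    constructor
    · rintro ((_ | q) | r)
      · rw [h20, ← h10]
        have h10' : cdeg w (a0 n t β) = d1 (Sum.inl none) := h8 _
        rw [← h10']
        exact h5
      · have h11 : cdeg w (cc n t β q) = Y q := (h8 (Sum.inl (some q))).trans (h1q q)
        have h12' := h6 q (List.mem_finRange q)
        rw [h2q]
        change cdeg v (cc n t β q) = _
        omega
      · rw [← h12]
        have h11 : cdeg w (Sum.inl (Sum.inr r)) = d1 (Sum.inr r) := h8 (Sum.inr r)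
        rw [← h11]
        exact h7 _ (by simp) (by simp)
    · intro s
      have h11 : cdeg v (Sum.inr s) = cdeg w (Sum.inr s) := h7 _ (by simp) (by simp)
      exact lt_of_eq_of_lt h11 (h9 s)
  · intro e s he
    have he0 : e (Sum.inl none) = Sum.inl none := by
      have h5 := he (Sum.inl none)
      rcases h6 : e (Sum.inl none) with (_ | q) | r
      · rfl
      · rw [h6, h2q, h20] at h5
        exact absurd h5 (hYu q)
      · rw [h6, h20] at h5
        exact absurd h5.symm (hur r)
    have heq : ∀ q, ∃ q', e (Sum.inl (some q)) = Sum.inl (some q') := by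
      intro q
      have h5 := he (Sum.inl (some q))
      rcases h6 : e (Sum.inl (some q)) with (_ | q') | r
      · rw [h6, h2q, h20] at h5
        exact absurd h5.symm (hYu q)
      · exact ⟨q', rfl⟩
      · rw [h6, h2q] at h5
        exact absurd h5.symm (hYr q r)
    choose π hπ using heq
    have her : ∀ r, ∃ r', e (Sum.inr r) = Sum.inr r' := by
      intro r
      have h5 := he (Sum.inr r)
      rcases h6 : e (Sum.inr r) with (_ | q') | r'
      · rw [h6, h20] at h5
        exact absurd h5 (hur r)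
      · rw [h6, h2q] at h5
        exact absurd h5 (hYr q' r)
      · exact ⟨r', rfl⟩
    have hinj : Function.Injective π := by
      intro q q' h
      have h5 : e (Sum.inl (some q)) = e (Sum.inl (some q')) := by rw [hπ, hπ, h]
      exact Option.some_injective _ (Sum.inl_injective (e.injective h5))
    let π' : Equiv.Perm (Fin n) := Equiv.ofBijective π (Finite.injective_iff_bijective.1 hinj)
    have h5 : ∀ j, d1 (e j) = d1 j := by
      rintro ((_ | q) | r)
      · rw [he0]
      · have h6 := he (Sum.inl (some q))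
        rw [hπ, h2q, h2q] at h6
        rw [hπ, h1q, h1q]
        have h7 := hz q
        have h8 := hz (π q)
        omega
      · obtain ⟨r', hr'⟩ := her r
        have h6 := he (Sum.inr r)
        rw [hr'] at h6 ⊢
        rw [h12, h12]
        exact h6
    have h6 : rn (m := m) (Sum.map e s : Cs n t β → Cs n t β) f = f := h3 e s h5
    have h7 := rn_Sh (m := m) (z := z) (Sum.map e s : Cs n t β → Cs n t β)
      (Sum.map_injective.2 ⟨e.injective, s.injective⟩) (congrArg Sum.inl he0) π
      (fun q => congrArg Sum.inl (hπ q)) (List.finRange n) f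
    rw [h6] at h7
    have h8 : ((List.finRange n).map π).Perm (List.finRange n) :=
      Equiv.Perm.map_finRange_perm π'
    rw [Sh_perm h8] at h7
    exact h7
  · intro i
    rw [Finset.sum_congr rfl fun j _ => pderiv_Sh (List.finRange n) i j f, ← map_sum, h4 i,
      map_zero]

lemma Sh_ker {z r : ℕ} {Y : Fin n → ℕ} (hY : ∀ q, r + z * n ≤ Y q)
    {f : MvPolynomial (Fin m × Cs n t β) ℂ}
    (hf : ∀ v, coeff v f ≠ 0 → cdeg v (a0 n t β) = r ∧ ∀ q, cdeg v (cc n t β q) = Y q)
    (h : NF (Sh m n t β z (List.finRange n) f)) : NF f := by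
  classical
  have hz : ∀ q, z ≤ Y q := by
    intro q
    have h1 := hY q
    have h2 : 1 ≤ n := q.pos
    have h3 : z * 1 ≤ z * n := Nat.mul_le_mul_left z h2
    omega
  intro v hv
  by_contra hno
  push Not at hno
  obtain ⟨hv0, hvq⟩ := hf v hv
  let d' : Cs n t β → ℕ := fun
    | .inl (.inl none) => r + z * n
    | .inl (.inl (some q)) => Y q - z
    | .inl (.inr r) => cdeg v (.inl (.inr r))
    | .inr s => cdeg v (.inr s)
  have h1 : cp d' (Sh m n t β z (List.finRange n) f) =
      Sh m n t β z (List.finRange n) (cp (cdeg v) f) := by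
    apply cp_comm
    intro g v' hv'
    obtain ⟨u, hu, h5, h6, h7⟩ := coeff_Sh (List.nodup_finRange n) hv'
    rw [List.length_finRange] at h5
    refine ⟨u, hu, ?_⟩
    constructor
    · intro h9
      funext y
      rcases y with ((_ | q) | r') | s
      · have h10 : cdeg v' (a0 n t β) = r + z * n := by rw [h9]
        change cdeg u (a0 n t β) = cdeg v (a0 n t β)
        omega
      · have h10 : cdeg v' (cc n t β q) = Y q - z := by rw [h9]
        have h11 := h6 q (List.mem_finRange q)
        have h12 := hz q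
        have h13 := hvq q
        change cdeg u (cc n t β q) = cdeg v (cc n t β q)
        omega
      · rw [← h7 _ (by simp) (by simp), h9]
      · rw [← h7 _ (by simp) (by simp), h9]
    · intro h9
      funext y
      rcases y with ((_ | q) | r') | s
      · change cdeg v' (a0 n t β) = r + z * n
        rw [h5, h9, hv0]
      · have h11 := h6 q (List.mem_finRange q)
        rw [h9, hvq] at h11
        change cdeg v' (cc n t β q) = Y q - z
        omega
      · rw [h7 _ (by simp) (by simp), h9]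
      · rw [h7 _ (by simp) (by simp), h9]
  have h2 : cp d' (Sh m n t β z (List.finRange n) f) = 0 := by
    apply MvPolynomial.ext
    intro v'
    rw [coeff_zero]
    by_contra hv'
    obtain ⟨h3, h4⟩ := cdeg_of_coeff_cp hv'
    obtain ⟨j, hj⟩ := h v' h4
    have h5 : cdeg v' (Sum.inr j) = cdeg v (Sum.inr j) := by rw [h3]
    exact hno j (h5.symm.trans hj)
  rw [h2] at h1
  have h3 : cp (cdeg v) f = 0 := by
    refine Sh_inj (r := r) (d := Y) (List.nodup_finRange n) (fun q _ => ?_) ?_ h1.symm
    · rw [List.length_finRange]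
      exact hY q
    · intro u hu
      rw [(cdeg_of_coeff_cp hu).1]
      exact ⟨hv0, hvq⟩
  apply hv
  have h4 := congrArg (coeff v) h3
  rw [coeff_cp, if_pos rfl, coeff_zero] at h4
  exact h4

/-- **(W4)** the joint shift, with the hypothesis `1 ≤ S`. -/
theorem shiftT1 (hK : KerStmt) (hT : TransT) : ∀ (m S : ℕ) (mu : Fin m → ℕ)
    (Y rho : Multiset ℕ) (u z t : ℕ), 1 ≤ S →
    (∀ y ∈ Y, u + z * Multiset.card Y ≤ y ∧ y - z ∉ rho ∧ y - z ≠ u + z * Multiset.card Y) →
    u + z * Multiset.card Y ∉ rho →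
    NT m S mu (u ::ₘ (Y + rho)) (t + 1) +
        NT m S mu ((u + z * Multiset.card Y) ::ₘ (Y.map (· - z) + rho)) t ≤
      NT m S mu (u ::ₘ (Y + rho)) t +
        NT m S mu ((u + z * Multiset.card Y) ::ₘ (Y.map (· - z) + rho)) (t + 1) := by
  intro m S mu Y rho u z t hS hY hr
  have hlen : Y.toList.length = Multiset.card Y := Multiset.length_toList Y
  have hmemY : ∀ q, Y.toList.get q ∈ Y := fun q => get_mem Y q
  have hmemr : ∀ q, rho.toList.get q ∈ rho := fun q => get_mem rho q
  let n := Y.toList.length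
  let d1 : Option (Fin n) ⊕ Fin rho.toList.length → ℕ := fun
    | .inl none => u
    | .inl (some q) => Y.toList.get q
    | .inr r => rho.toList.get r
  let d2 : Option (Fin n) ⊕ Fin rho.toList.length → ℕ := fun
    | .inl none => u + z * n
    | .inl (some q) => Y.toList.get q - z
    | .inr r => rho.toList.get r
  have hn : n = Multiset.card Y := hlen
  have e1 : Finset.univ.val.map d1 = u ::ₘ (Y + rho) := by
    rw [map_sum_val]
    congr 1
    have h1 : (Finset.univ : Finset (Fin n)).val.map (fun q => d1 (.inl (some q))) = Y :=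
      map_univ_toList Y
    have h2 : (Finset.univ : Finset (Fin rho.toList.length)).val.map
      (fun r => d1 (.inr r)) = rho := map_univ_toList rho
    rw [h1, h2]
  have e2 : Finset.univ.val.map d2 =
      (u + z * Multiset.card Y) ::ₘ (Y.map (· - z) + rho) := by
    rw [map_sum_val]
    have h0 : d2 (.inl none) = u + z * Multiset.card Y := by
      rw [← hn]
    have h1 : (Finset.univ : Finset (Fin n)).val.map (fun q => d2 (.inl (some q))) =
        Y.map (· - z) := by
      conv_rhs => rw [← map_univ_toList Y]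
      rw [Multiset.map_map]
      rfl
    have h2 : (Finset.univ : Finset (Fin rho.toList.length)).val.map
      (fun r => d2 (.inr r)) = rho := map_univ_toList rho
    rw [h0, h1, h2]
  have hYn : ∀ q : Fin n, u + z * n ≤ Y.toList.get q ∧ Y.toList.get q - z ∉ rho ∧
      Y.toList.get q - z ≠ u + z * n := by
    intro q
    rw [hn]
    exact hY _ (hmemY q)
  have hrn : u + z * n ∉ rho := by
    rw [hn]
    exact hr
  have h := core hK hS mu d1 d2 t (t + 1) t rfl
    (Sh m n (t + 1) (Fin rho.toList.length) z (List.finRange n)) (fun f hf => ⟨?_, ?_⟩)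
  · rw [hT, hT, hT, hT, e1, e2] at h
    exact h
  · exact Sh_mem (d1 := d1) (d2 := d2) (u := u) (Y := fun q => Y.toList.get q) rfl (fun _ => rfl) rfl (fun _ => rfl)
      (fun _ => rfl) (fun q => (hYn q).1)
      (fun q r h => (hYn q).2.1 (by rw [h]; exact hmemr r))
      (fun q => (hYn q).2.2) (fun r h => hrn (by rw [h]; exact hmemr r)) hf
  · refine Sh_ker (r := u) (Y := fun q => Y.toList.get q) (fun q => (hYn q).1) ?_
    intro v hv
    have h2 := ((mem_PKT.1 hf).2.1 v hv).1
    exact ⟨h2 (Sum.inl none), fun q => h2 (Sum.inl (some q))⟩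

/-- **(W4)** the literal. -/
theorem shiftT : Vale.Agent.P181.DU.S317.ShiftT :=
  shiftT1 Vale.Agent.P181.DGx.H831.kerStmt Vale.Agent.P181.DG0.transT

end Vale.Agent.P181.DU.H247
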