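import Vale.Agent.P181.DU.H247.Shift

set_option autoImplicit false

/-!
# P181, DU / DW (W4): the joint shift with different amounts
-/

open MvPolynomial

namespace Vale.Agent.P181.DU.H247.G

open Vale.Agent.P181.T4 (HW)
open Vale.Agent.P181.DG
open Vale.Agent.P181.DG.H514 (KerT KerStmt NF pderiv_colD rc_itD)
open Vale.Agent.P181.DG0 (mem_PKT)
open Vale.Agent.P181.DG4a
open Vale.Agent.P181.SZR3
open Vale.Agent.P181.SZT0 (rc)
open Vale.Agent.P181.DGz.H547 (itD_inj')
open Vale.Agent.P181.DG4.H237 (core)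
open Vale.Agent.P181.DU.H247 (coeff_itD itD_comm2)

variable {m n t : ℕ}

/-- The columns: the receptacle `inl none`, the other letters `inl (some q)`, the small columns
`inr s`. -/
abbrev Cs (n t : ℕ) : Type := Option (Fin n) ⊕ Fin t

/-- The receptacle. -/
abbrev a0 (n t : ℕ) : Cs n t := Sum.inl none

/-- The other letters. -/
abbrev cc (n t : ℕ) (q : Fin n) : Cs n t := Sum.inl (some q)

lemma cc_inj {q q' : Fin n} (h : cc n t q = cc n t q') : q = q' :=
  Option.some_injective _ (Sum.inl_injective h)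

lemma a0_ne_cc (q : Fin n) : a0 n t ≠ cc n t q := by
  intro h
  exact absurd (Sum.inl_injective h) (by simp)

/-- The product of the operators `(∑ X (i, none) ∂/∂X (i, q)) ^ δ q`, `q ∈ L`. -/
noncomputable def Sh (m n t : ℕ) (δ : Fin n → ℕ) : List (Fin n) →
    (MvPolynomial (Fin m × Cs n t) ℂ →ₗ[ℂ] MvPolynomial (Fin m × Cs n t) ℂ)
  | [] => LinearMap.id
  | q :: L => itD (a0 n t) (cc n t q) (δ q) ∘ₗ Sh m n t δ L

lemma Sh_cons (δ : Fin n → ℕ) (q : Fin n) (L : List (Fin n))
    (f : MvPolynomial (Fin m × Cs n t) ℂ) :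
    Sh m n t δ (q :: L) f = itD (a0 n t) (cc n t q) (δ q) (Sh m n t δ L f) := rfl

lemma coeff_Sh {δ : Fin n → ℕ} {L : List (Fin n)} (hL : L.Nodup)
    {f : MvPolynomial (Fin m × Cs n t) ℂ} {v : Fin m × Cs n t →₀ ℕ}
    (h : coeff v (Sh m n t δ L f) ≠ 0) :
    ∃ u, coeff u f ≠ 0 ∧ cdeg v (a0 n t) = cdeg u (a0 n t) + (L.map δ).sum ∧
      (∀ q ∈ L, cdeg v (cc n t q) + δ q = cdeg u (cc n t q)) ∧
      ∀ j, j ≠ a0 n t → (∀ q ∈ L, j ≠ cc n t q) → cdeg v j = cdeg u j := by
  induction L generalizing v with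
  | nil => exact ⟨v, h, by simp, by simp, fun _ _ _ => rfl⟩
  | cons q L ih =>
    rw [Sh_cons] at h
    obtain ⟨w, hw, h1⟩ := coeff_itD h
    obtain ⟨u, hu, h2, h3, h4⟩ := ih (List.nodup_cons.1 hL).2 hw
    have hq := (List.nodup_cons.1 hL).1
    refine ⟨u, hu, ?_, fun q' hq' => ?_, fun j hj hj' => ?_⟩
    · have h5 := h1 (a0 n t)
      rw [if_neg (Ne.symm (a0_ne_cc q)), if_pos rfl, h2] at h5
      rw [List.map_cons, List.sum_cons]
      omega
    · rcases List.mem_cons.1 hq' with rfl | hq'
      · have h5 := h1 (cc n t q')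
        rw [if_pos rfl, if_neg (a0_ne_cc q')] at h5
        have h8 : ∀ q'' ∈ L, cc n t q' ≠ cc n t q'' := by
          intro q'' hq'' h7
          apply hq
          rw [cc_inj (t := t) h7]
          exact hq''
        have h6 := h4 (cc n t q') (Ne.symm (a0_ne_cc q')) h8
        omega
      · have h5 := h1 (cc n t q')
        have h8 : cc n t q ≠ cc n t q' := by
          intro h7
          apply hq
          rw [cc_inj (t := t) h7]
          exact hq'
        rw [if_neg h8, if_neg (a0_ne_cc q')] at h5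
        have h6 := h3 q' hq'
        omega
    · have h5 := h1 j
      rw [if_neg (Ne.symm (hj' q (List.mem_cons_self ..))), if_neg (Ne.symm hj)] at h5
      have h6 := h4 j hj fun q' hq' => hj' q' (List.mem_cons_of_mem _ hq')
      omega

lemma Sh_inj {r : ℕ} {δ d : Fin n → ℕ} {L : List (Fin n)} (hL : L.Nodup)
    (hd : ∀ q ∈ L, δ q ≠ 0 → r + (L.map δ).sum ≤ d q)
    {f : MvPolynomial (Fin m × Cs n t) ℂ}
    (hf : ∀ v, coeff v f ≠ 0 → cdeg v (a0 n t) = r ∧ ∀ q, cdeg v (cc n t q) = d q)
    (h0 : Sh m n t δ L f = 0) : f = 0 := by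
  induction L with
  | nil => exact h0
  | cons q L ih =>
    have hL' := List.nodup_cons.1 hL
    rw [List.map_cons, List.sum_cons] at hd
    refine ih hL'.2 (fun q' hq' hq0 => le_trans ?_ (hd q' (List.mem_cons_of_mem _ hq') hq0)) ?_
    · omega
    · rw [Sh_cons] at h0
      by_cases hq0 : δ q = 0
      · rw [hq0, itD_zero] at h0
        exact h0
      · refine itD_inj' (τ := Cs n t) (a := a0 n t) (c := cc n t q) (a0_ne_cc q)
          (r := r + (L.map δ).sum) (n := d q) ?_ ?_ h0
        · have h1 := hd q (List.mem_cons_self ..) hq0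
          omega
        · intro v hv
          obtain ⟨u, hu, h2, _, h4⟩ := coeff_Sh hL'.2 hv
          obtain ⟨h5, h6⟩ := hf u hu
          refine ⟨by rw [h2, h5], ?_⟩
          have h8 : ∀ q' ∈ L, cc n t q ≠ cc n t q' := by
            intro q' hq' h7
            apply hL'.1
            rw [cc_inj (t := t) h7]
            exact hq'
          rw [h4 _ (Ne.symm (a0_ne_cc q)) h8, h6]

lemma mem_HW_Sh {δ : Fin n → ℕ} (L : List (Fin n)) {mu : Fin m → ℕ}
    {f : MvPolynomial (Fin m × Cs n t) ℂ} (hf : f ∈ HW m (Cs n t) mu) :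
    Sh m n t δ L f ∈ HW m (Cs n t) mu := by
  induction L with
  | nil => exact hf
  | cons q L ih => exact mem_HW_itD ih (δ q)

lemma pderiv_Sh {δ : Fin n → ℕ} (L : List (Fin n)) (i : Fin m) (s : Fin t)
    (f : MvPolynomial (Fin m × Cs n t) ℂ) :
    pderiv (i, Sum.inr s) (Sh m n t δ L f) = Sh m n t δ L (pderiv (i, Sum.inr s) f) := by
  have key : ∀ (q : Fin n) (u : ℕ) (g : MvPolynomial (Fin m × Cs n t) ℂ),
      pderiv (i, Sum.inr s) (itD (a0 n t) (cc n t q) u g) =
        itD (a0 n t) (cc n t q) u (pderiv (i, Sum.inr s) g) := by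
    intro q u g
    induction u with
    | zero => rw [itD_zero, itD_zero]
    | succ u ih =>
      rw [itD_succ, itD_succ, pderiv_colD, if_neg (by simp), add_zero, ih]
  induction L with
  | nil => rfl
  | cons q L ih => rw [Sh_cons, Sh_cons, key, ih]

lemma Sh_perm {δ : Fin n → ℕ} {L L' : List (Fin n)} (h : L.Perm L')
    (f : MvPolynomial (Fin m × Cs n t) ℂ) : Sh m n t δ L f = Sh m n t δ L' f := by
  induction h with
  | nil => rfl
  | cons q _ ih => rw [Sh_cons, Sh_cons, ih]
  | swap q q' L =>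
    rw [Sh_cons, Sh_cons, Sh_cons, Sh_cons,
      itD_comm2 (Ne.symm (a0_ne_cc q')) (Ne.symm (a0_ne_cc q))]
  | trans _ _ ih1 ih2 => rw [ih1, ih2]

lemma rn_Sh {δ : Fin n → ℕ} (φ : Cs n t → Cs n t) (hφ : Function.Injective φ)
    (h0 : φ (a0 n t) = a0 n t) (π : Fin n → Fin n) (h1 : ∀ q, φ (cc n t q) = cc n t (π q))
    (hδ : ∀ q, δ (π q) = δ q) (L : List (Fin n)) (f : MvPolynomial (Fin m × Cs n t) ℂ) :
    rn φ (Sh m n t δ L f) = Sh m n t δ (L.map π) (rn φ f) := by
  induction L with
  | nil => rfl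
  | cons q L ih =>
    rw [Sh_cons, List.map_cons, Sh_cons, ← ih, hδ]
    have h2 := rc_itD (m := m) φ (a0 n t) (cc n t q) (fun b hb => hφ hb) (δ q)
      (Sh m n t δ L f)
    rw [h0, h1] at h2
    exact h2

variable {S : ℕ} {d1 d2 : Option (Fin n) → ℕ} {mu : Fin m → ℕ}

lemma Sh_mem {r : ℕ} {δ Y : Fin n → ℕ} (h10 : d1 none = r)
    (h1q : ∀ q, d1 (some q) = Y q) (h20 : d2 none = r + ((List.finRange n).map δ).sum)
    (h2q : ∀ q, d2 (some q) + δ q = Y q)
    (hY : ∀ q q', d2 (some q) = d2 (some q') → Y q = Y q' ∧ δ q = δ q')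
    (hYu : ∀ q, d2 (some q) ≠ d2 none)
    {f : MvPolynomial (Fin m × Cs n t) ℂ}
    (hf : f ∈ PKT m S (Option (Fin n)) d1 t mu) :
    Sh m n t δ (List.finRange n) f ∈ PKT m S (Option (Fin n)) d2 t mu := by
  rw [mem_PKT] at hf ⊢
  obtain ⟨h1, h2, h3, h4⟩ := hf
  refine ⟨mem_HW_Sh _ h1, ?_, ?_, ?_⟩
  · intro v hv
    obtain ⟨w, hw, h5, h6, h7⟩ := coeff_Sh (List.nodup_finRange n) hv
    obtain ⟨h8, h9⟩ := h2 w hw
    constructor
    · rintro (_ | q)
      · rw [h20, ← h10]
        have h10' : cdeg w (a0 n t) = d1 none := h8 _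
        rw [← h10']
        exact h5
      · have h11 : cdeg w (cc n t q) = Y q := (h8 (some q)).trans (h1q q)
        have h12' := h6 q (List.mem_finRange q)
        have h13 := h2q q
        change cdeg v (cc n t q) = _
        omega
    · intro s
      have h11 : cdeg v (Sum.inr s) = cdeg w (Sum.inr s) := h7 _ (by simp) (by simp)
      exact lt_of_eq_of_lt h11 (h9 s)
  · intro e s he
    have he0 : e none = none := by
      have h5 := he none
      rcases h6 : e none with _ | q
      · rfl
      · rw [h6] at h5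
        exact absurd h5 (hYu q)
    have heq : ∀ q, ∃ q', e (some q) = some q' := by
      intro q
      have h5 := he (some q)
      rcases h6 : e (some q) with _ | q'
      · rw [h6] at h5
        exact absurd h5.symm (hYu q)
      · exact ⟨q', rfl⟩
    choose π hπ using heq
    have hinj : Function.Injective π := by
      intro q q' h
      have h5 : e (some q) = e (some q') := by rw [hπ, hπ, h]
      exact Option.some_injective _ (e.injective h5)
    let π' : Equiv.Perm (Fin n) := Equiv.ofBijective π (Finite.injective_iff_bijective.1 hinj)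
    have hπ2 : ∀ q, Y (π q) = Y q ∧ δ (π q) = δ q := by
      intro q
      have h6 := he (some q)
      rw [hπ] at h6
      exact hY _ _ h6
    have h5 : ∀ j, d1 (e j) = d1 j := by
      rintro (_ | q)
      · rw [he0]
      · rw [hπ, h1q, h1q, (hπ2 q).1]
    have h6 : rn (m := m) (Sum.map e s : Cs n t → Cs n t) f = f := h3 e s h5
    have h7 := rn_Sh (m := m) (δ := δ) (Sum.map e s : Cs n t → Cs n t)
      (Sum.map_injective.2 ⟨e.injective, s.injective⟩) (congrArg Sum.inl he0) π
      (fun q => congrArg Sum.inl (hπ q)) (fun q => (hπ2 q).2) (List.finRange n) f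
    rw [h6] at h7
    have h8 : ((List.finRange n).map π).Perm (List.finRange n) :=
      Equiv.Perm.map_finRange_perm π'
    rw [Sh_perm h8] at h7
    exact h7
  · intro i
    rw [Finset.sum_congr rfl fun j _ => pderiv_Sh (List.finRange n) i j f, ← map_sum, h4 i,
      map_zero]

lemma Sh_ker {r : ℕ} {δ Y : Fin n → ℕ}
    (hY : ∀ q, δ q ≠ 0 → r + ((List.finRange n).map δ).sum ≤ Y q) (hδ : ∀ q, δ q ≤ Y q)
    {f : MvPolynomial (Fin m × Cs n t) ℂ}
    (hf : ∀ v, coeff v f ≠ 0 → cdeg v (a0 n t) = r ∧ ∀ q, cdeg v (cc n t q) = Y q)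
    (h : NF (Sh m n t δ (List.finRange n) f)) : NF f := by
  classical
  intro v hv
  by_contra hno
  push Not at hno
  obtain ⟨hv0, hvq⟩ := hf v hv
  let d' : Cs n t → ℕ := fun
    | .inl none => r + ((List.finRange n).map δ).sum
    | .inl (some q) => Y q - δ q
    | .inr s => cdeg v (.inr s)
  have h1 : cp d' (Sh m n t δ (List.finRange n) f) =
      Sh m n t δ (List.finRange n) (cp (cdeg v) f) := by
    apply cp_comm
    intro g v' hv'
    obtain ⟨u, hu, h5, h6, h7⟩ := coeff_Sh (List.nodup_finRange n) hv'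
    refine ⟨u, hu, ?_⟩
    constructor
    · intro h9
      funext y
      rcases y with (_ | q) | s
      · have h10 : cdeg v' (a0 n t) = r + ((List.finRange n).map δ).sum := by rw [h9]
        change cdeg u (a0 n t) = cdeg v (a0 n t)
        omega
      · have h10 : cdeg v' (cc n t q) = Y q - δ q := by rw [h9]
        have h11 := h6 q (List.mem_finRange q)
        have h12 := hδ q
        have h13 := hvq q
        change cdeg u (cc n t q) = cdeg v (cc n t q)
        omega
      · rw [← h7 _ (by simp) (by simp), h9]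
    · intro h9
      funext y
      rcases y with (_ | q) | s
      · change cdeg v' (a0 n t) = r + ((List.finRange n).map δ).sum
        rw [h5, h9, hv0]
      · have h11 := h6 q (List.mem_finRange q)
        rw [h9, hvq] at h11
        change cdeg v' (cc n t q) = Y q - δ q
        omega
      · rw [h7 _ (by simp) (by simp), h9]
  have h2 : cp d' (Sh m n t δ (List.finRange n) f) = 0 := by
    apply MvPolynomial.ext
    intro v'
    rw [coeff_zero]
    by_contra hv'
    obtain ⟨h3, h4⟩ := cdeg_of_coeff_cp hv'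
    obtain ⟨j, hj⟩ := h v' h4
    have h5 : cdeg v' (Sum.inr j) = cdeg v (Sum.inr j) := by rw [h3]
    exact hno j (h5.symm.trans hj)
  rw [h2] at h1
  have h3 : cp (cdeg v) f = 0 := by
    refine Sh_inj (r := r) (d := Y) (List.nodup_finRange n) (fun q _ hq => hY q hq) ?_ h1.symm
    intro u hu
    rw [(cdeg_of_coeff_cp hu).1]
    exact ⟨hv0, hvq⟩
  apply hv
  have h4 := congrArg (coeff v) h3
  rw [coeff_cp, if_pos rfl, coeff_zero] at h4
  exact h4

lemma map_option_val {α : Type} [Fintype α] (d : Option α → ℕ) :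
    (Finset.univ : Finset (Option α)).val.map d = d none ::ₘ
      (Finset.univ : Finset α).val.map (fun q => d (some q)) := by
  rw [univ_option, Finset.insertNone]
  simp [Function.comp_def, Multiset.map_map]

/-- **(W4)** the joint shift with different amounts. -/
theorem shiftG (hK : KerStmt) (hT : TransT) : ∀ (m S : ℕ) (mu : Fin m → ℕ)
    (rho : Multiset ℕ) (φ : ℕ → ℕ) (v t : ℕ), 1 ≤ S → (∀ x ∈ rho, φ x ≤ x) →
    (∀ x ∈ rho, ∀ y ∈ rho, φ x = φ y → x = y) →
    (∀ x ∈ rho, φ x ≠ x → v + (rho.map fun x => x - φ x).sum ≤ x) →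
    v + (rho.map fun x => x - φ x).sum ∉ rho.map φ →
    NT m S mu (v ::ₘ rho) (t + 1) +
        NT m S mu ((v + (rho.map fun x => x - φ x).sum) ::ₘ rho.map φ) t ≤
      NT m S mu (v ::ₘ rho) t +
        NT m S mu ((v + (rho.map fun x => x - φ x).sum) ::ₘ rho.map φ) (t + 1) := by
  intro m S mu rho φ v t hS hφ hinj hle hnot
  have hmem : ∀ q, rho.toList.get q ∈ rho := fun q => get_mem rho q
  let n := rho.toList.length
  let δ : Fin n → ℕ := fun q => rho.toList.get q - φ (rho.toList.get q)
  let d1 : Option (Fin n) → ℕ := fun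
    | none => v
    | some q => rho.toList.get q
  let d2 : Option (Fin n) → ℕ := fun
    | none => v + ((List.finRange n).map δ).sum
    | some q => φ (rho.toList.get q)
  have hU : ((List.finRange n).map δ).sum = (rho.map fun x => x - φ x).sum := by
    conv_rhs => rw [← map_univ_toList rho]
    rw [Multiset.map_map]
    rfl
  have e1 : Finset.univ.val.map d1 = v ::ₘ rho := by
    rw [map_option_val]
    congr 1
    exact map_univ_toList rho
  have e2 : Finset.univ.val.map d2 =
      (v + (rho.map fun x => x - φ x).sum) ::ₘ rho.map φ := by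
    rw [map_option_val]
    have h0 : d2 none = v + (rho.map fun x => x - φ x).sum := by
      rw [← hU]
    have h1 : (Finset.univ : Finset (Fin n)).val.map (fun q => d2 (some q)) =
        rho.map φ := by
      conv_rhs => rw [← map_univ_toList rho]
      rw [Multiset.map_map]
      rfl
    rw [h0, h1]
  have h := core hK hS mu d1 d2 t (t + 1) t rfl
    (Sh m n (t + 1) δ (List.finRange n)) (fun f hf => ⟨?_, ?_⟩)
  · rw [hT, hT, hT, hT, e1, e2] at h
    exact h
  · refine Sh_mem (d1 := d1) (d2 := d2) (r := v) (Y := fun q => rho.toList.get q) rfl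
      (fun _ => rfl) rfl (fun q => ?_) (fun q q' hqq => ?_) (fun q hq => ?_) hf
    · have h1 := hφ _ (hmem q)
      change φ (rho.toList.get q) + (rho.toList.get q - φ (rho.toList.get q)) =
        rho.toList.get q
      omega
    · have h1 : rho.toList.get q = rho.toList.get q' := hinj _ (hmem q) _ (hmem q') hqq
      exact ⟨h1, by simp only [δ, h1]⟩
    · apply hnot
      rw [← hU]
      have h1 : φ (rho.toList.get q) = v + ((List.finRange n).map δ).sum := hq
      rw [← h1]
      exact Multiset.mem_map_of_mem φ (hmem q)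
  · refine Sh_ker (r := v) (Y := fun q => rho.toList.get q) (fun q hq => ?_)
      (fun q => Nat.sub_le _ _) ?_
    · rw [hU]
      apply hle _ (hmem q)
      intro h1
      apply hq
      simp only [δ, h1, Nat.sub_self]
    · intro w hw
      have h2 := ((mem_PKT.1 hf).2.1 w hw).1
      exact ⟨h2 none, fun q => h2 (some q)⟩

end Vale.Agent.P181.DU.H247.G
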